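import Vale.Agent.P273.H484.FLcln
import Vale.Agent.P273.H285.UniP
import Vale.Agent.P273.H539.VolP
import Vale.Agent.P273.H728.Pol

/-!
# P273, LIM: one region, one choice of the eliminated gaps (assembly)
-/

noncomputable section

namespace Vale.Agent.P273.H577

open Set Filter MeasureTheory H681 H95 H732 H973 H562 H573
open scoped Topology

/-- volume of the large gaps for one choice of the eliminated gaps -/
def vm (Q : H93.RB) (y : Fin 3 → ℝ) : ℝ :=
  ∏ k, y k ^ ((Q.B k).card - 1) / ((Q.B k).card.factorial : ℝ)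

theorem exists_e7 {R : Region} {m : ∀ k, Fin (R.n k + 1)} {B : Finset (W R m).Fr}
    (hB : B.card = 6) : Nonempty (Fin 7 ≃ Option {f // f ∈ B}) := by
  have h : Fintype.card (Option {f // f ∈ B}) = 7 := by
    rw [Fintype.card_option, Fintype.card_coe, hB]
  exact ⟨(Fintype.equivFinOfCardEq h).symm⟩

theorem exists_e8 {R : Region} {m : ∀ k, Fin (R.n k + 1)} {B : Finset (W R m).Fr}
    (hB : B.card = 6) : Nonempty (Fin 8 ≃ {f // f ∉ B} ⊕ R.Cm) := by
  have h14 : Fintype.card (W R m).Fr + Fintype.card R.Cm = 14 := by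
    rw [← Fintype.card_sum]
    exact H484.card_fr_cm R m
  have h : Fintype.card ({f // f ∉ B} ⊕ R.Cm) = 8 := by
    have h1 : Fintype.card {f // f ∈ B} = 6 := by rw [Fintype.card_coe, hB]
    have h2 := Fintype.card_subtype_compl (fun f => f ∈ B)
    have h3 := Fintype.card_subtype_le (fun f => f ∈ B)
    rw [Fintype.card_sum]
    omega
  exact ⟨(Fintype.equivFinOfCardEq h).symm⟩

theorem fr_card {Q : H93.RB} (h9 : ∑ k, (Q.B k).card = 9)
    {m : ∀ k, Fin ((H728.rg Q).n k + 1)} (hm : ∀ k, (m k).1 ∈ Q.B k) : (Q.fr m).card = 6 := by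
  have h := H539.card_dn (H728.rg Q) m (H539.mem_of Q hm)
  rw [H539.card_gB Q h9] at h
  rw [H539.fr_eq_dn]
  exact Nat.add_right_cancel (m := 3) h

/-- **one choice of the eliminated gaps** -/
theorem core (X : Ext) (T : MT) (n : ℕ) (Q : H93.RB) (h9 : ∑ k, (Q.B k).card = 9)
    (far : (H728.rg Q).Cm → Bool) (m : ∀ k, Fin ((H728.rg Q).n k + 1))
    (hm : ∀ k, (m k).1 ∈ Q.B k) (y : Fin 3 → ℝ) (hy : ∀ k, 0 < y k) (α : Fin 3 → ℝ)
    (a b : Co (H728.rg Q) m) (ha1 : a.1 = 0) (ha2 : a.2.1 = 0) (ha3 : a.2.2.2.2 = 0)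
    (hb1 : b.1 = 0) (hb2 : b.2.1 = 0) (hb3 : b.2.2.2.2 = 0) :
    ∫ x in domL (H728.rg Q) m far (Q.fr m) y, OmL (H728.rg Q) m X T n (Sx (H728.rg Q) far)
      (Q.fr m) (mk (H728.rg Q) m y α x) (fr30 (H728.rg Q) m a b) =
    vm Q y * (2 * Real.pi) ^ 6 * DTc (H728.rg Q) T n (gB Q) y (fun c =>
      if c then cval (H728.rg Q) m y b else cval (H728.rg Q) m y a) *
      piece (H728.rg Q) X far (gB Q) := by
  have hB : (Q.fr m).card = 6 := fr_card h9 hm
  have hbig : big (H728.rg Q) m (Q.fr m) = gB Q := H285.big_fr hm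
  obtain ⟨e₈⟩ := exists_e8 (R := H728.rg Q) (m := m) (B := Q.fr m) hB
  obtain ⟨e₇⟩ := exists_e7 (R := H728.rg Q) (m := m) (B := Q.fr m) hB
  have key : ∀ x : Fb (H728.rg Q) m, OmL (H728.rg Q) m X T n (Sx (H728.rg Q) far)
      (Q.fr m) (mk (H728.rg Q) m y α x) (fr30 (H728.rg Q) m a b) =
      Gc (H728.rg Q) (gB Q) X far (rst (H728.rg Q) m (gB Q) x) *
        DTc (H728.rg Q) T n (gB Q) y (fun c =>
          if c then cval (H728.rg Q) m y b else cval (H728.rg Q) m y a) := by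
    intro x
    rw [H484.split X (H728.rg Q) m far T n (Q.fr m) (mk (H728.rg Q) m y α x) a b hB
      (H484.dqz_base _ _ _ ha1 ha2 ha3) (H484.dqz_base _ _ _ hb1 hb2 hb3) e₈ e₇,
      H484.FL_clean (H728.rg Q) m (Q.fr m) X far y α x e₈,
      H285.uni (H728.rg Q) m T n (Q.fr m) _ a b hB ha1 ha2 hb1 hb2 e₇, hbig]
    rfl
  rw [integral_congr_ae (Filter.Eventually.of_forall key), integral_mul_const,
    H539.vol Q m hm h9 far y hy, H728.pol, vm]
  ring

end Vale.Agent.P273.H577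

end
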