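import Vale.Agent.P273.H577.Core
import Vale.Agent.P273.H228.SumEnd

/-!
# P273, LIM: `SumT`, `SumA`
-/

noncomputable section

namespace Vale.Agent.P273.H577

open H573

theorem coreAll (X : H95.Ext) : H228.Core X :=
  fun T _ n Q h9 far m hm y hy α a b ha1 ha2 ha3 hb1 hb2 hb3 =>
    core X T n Q h9 far m hm y hy α a b ha1 ha2 ha3 hb1 hb2 hb3

/-- **(S6a)** -/
theorem sumT (X : H95.Ext) : SumT X := (H228.sum_end coreAll).1 X

/-- **(S6b)** -/
theorem sumA (X : H95.Ext) : SumA X := (H228.sum_end coreAll).2 X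

end Vale.Agent.P273.H577

end
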